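import Vale.Agent.P142.Bdl.B1

/-!
# P142: Brennan's conjecture

For every conformal bijection of an open set `W` onto the unit disc the integral of `|φ'| ^ s`
over `W` is finite for all `4/3 < s < 4`; equivalently, the integral of `|f'| ^ t` over the disc
is finite for every univalent `f` and all `-2 < t < 2/3`.
-/

open MeasureTheory Metric Set
open scoped ENNReal

namespace Vale.Agent.Results.P142.Brennan

/-- **Brennan's conjecture**, in the form for conformal maps onto the disc and in the form for
univalent functions on the disc. -/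
theorem result :
    (∀ (W : Set ℂ) (φ : ℂ → ℂ), IsOpen W → DifferentiableOn ℂ φ W → BijOn φ W (ball 0 1) →
      ∀ s : ℝ, 4 / 3 < s → s < 4 →
        ∫⁻ w in W, ENNReal.ofReal (‖deriv φ w‖ ^ s) < ⊤) ∧
    (∀ f : ℂ → ℂ, DifferentiableOn ℂ f (ball 0 1) → InjOn f (ball 0 1) →
      ∀ t : ℝ, -2 < t → t < 2 / 3 →
        ∫⁻ z in ball (0 : ℂ) 1, ENNReal.ofReal (‖deriv f z‖ ^ t) < ⊤) :=
  Vale.Agent.P142.Brn.brennan_of
    (Vale.Agent.P142.Brn.blockF_of Vale.Agent.P142.Brn.blockI Vale.Agent.P142.Brn.Par6.blockP)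

end Vale.Agent.Results.P142.Brennan
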